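import Vale.Agent.P122.E.Defs

/-!
# P122 / E9 = (P), the cut (helper465, with 624, 371, 540)

* `dp`, `dq` : normal position and normal direction digits of the tube of level `i` in the frame `ψ (sig i j)`.
* `FrC` : the frame `φ c` of the level `c` agrees with `ψ (sig i j)` off a rare event.
* `Ctx` : all hypotheses, `BoxP` (624), `QHalf` (371), `PHalf` (540) : the three blocks.
-/

set_option autoImplicit false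

namespace Vale.Agent.P122.H465

open Filter Topology Finset Vale.Agent.P127 Vale.Agent.P127.Stk Vale.Agent.P127.U Vale.Agent.P127.U.Sys Vale.Agent.P122.C2
  Vale.Agent.P122.E

/-- the frame of the level `c` agrees with the frame `ψ` of the piece `sig i j` -/
def FrC {K : ℕ} (F : Flg K) (φ : ℕ → ℕ → Nd → ℝ) (c1 : ℝ) (ψ : ℕ → Nd → ℝ) (i j c : ℕ) : Prop :=
  Rare F.S fun a ω => 4 * (2 : ℝ) ^ (-(c1 / 2 * F.S.L a)) <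
    |Real.sin (φ c a (F.sg c a ω) - ψ a (F.sig i j a ω))|

/-- normal position digits of the tube of level `i`, precision of the level `i + u` -/
noncomputable def dp {K : ℕ} (F : Flg K) (ψ : ℕ → Nd → ℝ) (i j u : ℕ) : F.S.RV ℤ := fun a ω =>
  ⌊fn (ψ a (F.sig i j a ω)) (fun k => ((F.N i a ω).o k : ℝ)) / 2 ^ (u * F.n a)⌋

/-- normal direction digits of the tube of level `i`, precision of the level `i - u` -/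
noncomputable def dq {K : ℕ} (F : Flg K) (ψ : ℕ → Nd → ℝ) (i j u : ℕ) : F.S.RV ℤ := fun a ω =>
  ⌊2 ^ ((i - u) * F.n a) * fn (ψ a (F.sig i j a ω)) (F.s a i (F.Y i a ω))⌋

/-- the hypotheses of the three blocks -/
structure Ctx (κ C₀ : ℝ) {K : ℕ} (F : Flg K) (J θ H e : ℕ → ℝ) (W : ℕ → F.S.BX) (kk jj : ℕ → ℕ → ℕ) (c1 : ℝ)
    (φ : ℕ → ℕ → Nd → ℝ) (JF : ℕ → ℝ) (ψ : ℕ → Nd → ℝ) (i j u : ℕ) : Prop where
  κ0 : 0 < κ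
  K1 : 1 ≤ K
  c0 : 0 < c1
  cK : C₀ / K ≤ c1
  reg : RegB F J θ H e W kk jj κ c1 φ JF
  ij : i ≤ j
  j2 : j < 2 * i
  jK : j ≤ K
  iu : i + u ≤ j
  near : ((j:ℝ) - i) / K ≤ κ * c1
  thin : ∀ c, 2 * i - j ≤ c → c ≤ j → Thin F e jj κ c1 c
  fr : Rare F.S fun a ω => (2 : ℝ) ^ (-(c1 / 2 * F.S.L a)) < |Real.sin ((W i a).θ ω - ψ a (F.sig i j a ω))|
  frc : ∀ c, 2 * i - j ≤ c → c < j → FrC F φ c1 ψ i j c

/-- **box step** (helper624) -/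
def BoxP (κ₀ C₀ : ℝ) : Prop :=
  ∀ {K : ℕ} (κ : ℝ) (F : Flg K) (J θ H e : ℕ → ℝ) (W : ℕ → F.S.BX) (kk jj : ℕ → ℕ → ℕ) (c1 : ℝ)
    (φ : ℕ → ℕ → Nd → ℝ) (JF : ℕ → ℝ) (ψ : ℕ → Nd → ℝ) (i j u : ℕ), κ ≤ κ₀ →
    Ctx κ C₀ F J θ H e W kk jj c1 φ JF ψ i j u → |nα F jj i - ((i:ℝ) + u) / K| ≤ 1 / K →
      nV K H e j ≤ nV K H e i + 3 * F.D i j + ((j:ℝ) - i - u) / K + C₀ / K -
        F.S.hc (Sys.pr (dp F ψ i j u) (dq F ψ i j u)) (F.sig i j)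

/-- **direction half** (helper371) -/
def QHalf (κ₀ C₀ : ℝ) : Prop :=
  ∀ {K : ℕ} (κ : ℝ) (F : Flg K) (J θ H e : ℕ → ℝ) (W : ℕ → F.S.BX) (kk jj : ℕ → ℕ → ℕ) (c1 : ℝ)
    (φ : ℕ → ℕ → Nd → ℝ) (JF : ℕ → ℝ) (ψ : ℕ → Nd → ℝ) (i j u : ℕ), κ ≤ κ₀ →
    Ctx κ C₀ F J θ H e W kk jj c1 φ JF ψ i j u →
      ∑ c ∈ Ico (2 * i - j) (i - u), JF c ≤ F.S.hc (dq F ψ i j u) (F.sig i j) + C₀ / K

/-- **position half** (helper540) -/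
def PHalf (κ₀ C₀ : ℝ) : Prop :=
  ∀ {K : ℕ} (κ : ℝ) (F : Flg K) (J θ H e : ℕ → ℝ) (W : ℕ → F.S.BX) (kk jj : ℕ → ℕ → ℕ) (c1 : ℝ)
    (φ : ℕ → ℕ → Nd → ℝ) (JF : ℕ → ℝ) (ψ : ℕ → Nd → ℝ) (i j u : ℕ), κ ≤ κ₀ →
    Ctx κ C₀ F J θ H e W kk jj c1 φ JF ψ i j u →
      ((j:ℝ) - i - u) / K -
          (2 * ((j:ℝ) - i) / K - F.S.hc (F.N i) (Sys.pr (F.sig i j) (F.N j)) - 2 * ∑ c ∈ Ico i j, θ c) -
          ∑ c ∈ Ico (i + u) j, JF c ≤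
        F.S.hc (dp F ψ i j u) (Sys.pr (F.sig i j) (F.N j)) + C₀ / K

end Vale.Agent.P122.H465
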