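import Vale.Agent.P122.E.Defs

/-!
# P122 / rare events, small library (helper465)
-/

set_option autoImplicit false

namespace Vale.Agent.P122.H465

open Filter Topology Finset Vale.Agent.P127 Vale.Agent.P127.Stk Vale.Agent.P127.U Vale.Agent.P127.U.Sys Vale.Agent.P122.E

variable {S : Sys}

open Classical in
theorem prb_sum (E : ∀ i, S.Ω i → Prop) (i : ℕ) :
    prb S E i = ∑ ω, (S.P i).w ω * (if E i ω then (1 : ℝ) else 0) := rfl

theorem prb_nonneg (E : ∀ i, S.Ω i → Prop) (i : ℕ) : 0 ≤ prb S E i := by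
  classical
  rw [prb_sum]
  refine sum_nonneg fun ω _ => mul_nonneg ((S.P i).nn ω) ?_
  split_ifs <;> norm_num

theorem prb_mono {E E' : ∀ i, S.Ω i → Prop} {i : ℕ} (h : ∀ ω, 0 < (S.P i).w ω → E i ω → E' i ω) :
    prb S E i ≤ prb S E' i := by
  classical
  rw [prb_sum, prb_sum]
  refine sum_le_sum fun ω _ => ?_
  rcases ((S.P i).nn ω).eq_or_lt with h0 | h0
  · rw [← h0, zero_mul, zero_mul]
  · refine mul_le_mul_of_nonneg_left ?_ h0.le
    by_cases hE : E i ω
    · rw [if_pos hE, if_pos (h ω h0 hE)]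
    · rw [if_neg hE]
      split_ifs <;> norm_num

theorem prb_or (E E' : ∀ i, S.Ω i → Prop) (i : ℕ) :
    prb S (fun i ω => E i ω ∨ E' i ω) i ≤ prb S E i + prb S E' i := by
  classical
  rw [prb_sum, prb_sum, prb_sum]
  rw [← sum_add_distrib]
  refine sum_le_sum fun ω _ => ?_
  rw [← mul_add]
  refine mul_le_mul_of_nonneg_left ?_ ((S.P i).nn ω)
  by_cases hE : E i ω
  · rw [if_pos (Or.inl hE), if_pos hE]
    split_ifs <;> norm_num
  · by_cases hF : E' i ω
    · rw [if_pos (Or.inr hF), if_neg hE, if_pos hF]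
      norm_num
    · rw [if_neg (by tauto), if_neg hE, if_neg hF]
      norm_num

theorem Rare.mono {E E' : ∀ i, S.Ω i → Prop} (h' : Rare S E')
    (h : ∀ᶠ i in (uf : Filter ℕ), ∀ ω, 0 < (S.P i).w ω → E i ω → E' i ω) : Rare S E := by
  obtain ⟨η, h0, h1⟩ := h'
  refine ⟨η, h0, ?_⟩
  filter_upwards [h, h1] with i g1 g2
  exact (prb_mono g1).trans g2

theorem Rare.or {E E' : ∀ i, S.Ω i → Prop} (h : Rare S E) (h' : Rare S E') :
    Rare S (fun i ω => E i ω ∨ E' i ω) := by
  obtain ⟨η, h0, h1⟩ := h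
  obtain ⟨η', h0', h1'⟩ := h'
  have hm : 0 < min η η' := lt_min h0 h0'
  refine ⟨min η η' / 2, by positivity, ?_⟩
  have hL : Tendsto (fun i => min η η' / 2 * (S.L i : ℝ)) (uf : Filter ℕ) atTop :=
    (tendsto_natCast_atTop_atTop.comp S.Ltop).const_mul_atTop (by positivity)
  filter_upwards [h1, h1', hL.eventually_ge_atTop 1] with i g1 g2 g3
  have hL0 : (0 : ℝ) ≤ S.L i := Nat.cast_nonneg _
  have k1 : (2 : ℝ) ^ (-(η * S.L i)) ≤ (2 : ℝ) ^ (-(min η η' * S.L i)) := by
    refine Real.rpow_le_rpow_of_exponent_le (by norm_num) ?_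
    have := mul_le_mul_of_nonneg_right (min_le_left η η') hL0
    linarith
  have k2 : (2 : ℝ) ^ (-(η' * S.L i)) ≤ (2 : ℝ) ^ (-(min η η' * S.L i)) := by
    refine Real.rpow_le_rpow_of_exponent_le (by norm_num) ?_
    have := mul_le_mul_of_nonneg_right (min_le_right η η') hL0
    linarith
  have k3 : (2 : ℝ) * (2 : ℝ) ^ (-(min η η' * S.L i)) ≤ (2 : ℝ) ^ (-(min η η' / 2 * S.L i)) := by
    have e : (2 : ℝ) * (2 : ℝ) ^ (-(min η η' * S.L i)) = (2 : ℝ) ^ (1 + -(min η η' * S.L i)) := by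
      rw [Real.rpow_add (by norm_num), Real.rpow_one]
    rw [e]
    refine Real.rpow_le_rpow_of_exponent_le (by norm_num) ?_
    linarith
  have k4 := prb_or (S := S) E E' i
  linarith

/-- a sure statement is rare to fail -/
theorem Rare.of_never {E : ∀ i, S.Ω i → Prop}
    (h : ∀ᶠ i in (uf : Filter ℕ), ∀ ω, 0 < (S.P i).w ω → ¬ E i ω) : Rare S E := by
  refine ⟨1, one_pos, ?_⟩
  filter_upwards [h] with i g
  have h1 : prb S E i ≤ prb S (fun _ _ => False) i := prb_mono (E' := fun _ _ => False) g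
  have h2 : prb S (fun _ _ => False) i = 0 := by
    rw [prb_sum]
    simp
  rw [h2] at h1
  exact h1.trans (Real.rpow_nonneg (by norm_num) _)

theorem sin_tri (a b c : ℝ) : |Real.sin (a - c)| ≤ |Real.sin (a - b)| + |Real.sin (b - c)| := by
  have e : a - c = (a - b) + (b - c) := by ring
  rw [e, Real.sin_add]
  refine (abs_add_le _ _).trans ?_
  rw [abs_mul, abs_mul]
  have h1 := Real.abs_cos_le_one (b - c)
  have h2 := Real.abs_cos_le_one (a - b)
  have h3 := abs_nonneg (Real.sin (a - b))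
  have h4 := abs_nonneg (Real.sin (b - c))
  nlinarith

theorem sin_symm (a b : ℝ) : |Real.sin (a - b)| = |Real.sin (b - a)| := by
  rw [← abs_neg, ← Real.sin_neg, neg_sub]

end Vale.Agent.P122.H465
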