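import Vale.Agent.P122.H465.E9Defs
import Vale.Agent.P122.H465.RareLib
import Vale.Agent.P122.H518.E12
import Vale.Agent.P122.H265.Sig
import Vale.Agent.P122.H563.Mono

/-!
# P122 / E9 = (P), assembly (helper465)

`e9_of` : `E8 κ₁ C₁ → BoxP κ₂ C₂ → QHalf κ₃ C₃ → PHalf κ₄ C₄ → ∃ κ₀ > 0, ∃ C₀, ∀ κ, 0 < κ → κ ≤ κ₀ → E9 κ C₀`.
-/

set_option autoImplicit false

namespace Vale.Agent.P122.H465

open Filter Topology Finset Vale.Agent.P127 Vale.Agent.P127.Stk Vale.Agent.P127.U Vale.Agent.P127.U.Sys Vale.Agent.P122.C2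
  Vale.Agent.P122.E Vale.Agent.P122.H518 Vale.Agent.P122.H265

variable {K : ℕ}

/-! ### the accumulated normal branching -/

theorem ng_sub (F : Flg K) (e : ℕ → ℝ) (jj : ℕ → ℕ → ℕ) (κ c1 : ℝ) (JF : ℕ → ℝ) {a b : ℕ} (hab : a ≤ b)
    (ha : 1 ≤ a) (ht : ∀ c, a ≤ c → c < b → Thin F e jj κ c1 c) :
    ng F e jj κ c1 JF b - ng F e jj κ c1 JF a = ∑ c ∈ Ico a b, JF c := by
  classical
  unfold ng
  have h1 := sum_range_add_sum_Ico (fun i => if 1 ≤ i ∧ Thin F e jj κ c1 i then JF i else 0) hab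
  have h2 : ∑ c ∈ Ico a b, (if 1 ≤ c ∧ Thin F e jj κ c1 c then JF c else 0) = ∑ c ∈ Ico a b, JF c := by
    refine sum_congr rfl fun c hc => ?_
    rw [mem_Ico] at hc
    rw [if_pos ⟨ha.trans hc.1, ht c hc.1 hc.2⟩]
  have h3 : ∀ x y z : ℝ, x + y = z → z - x = y := fun x y z h => by linarith
  exact (h3 _ _ _ h1).trans h2

/-! ### a crude bound of the excess -/

/-- the node given the ball -/
theorem cnt_ball (F : Flg K) (hK : 1 ≤ K) {c : ℕ} (hc : c ≤ K) : Cnt F.S (F.N c) (F.ball c) (4 * c / K) := by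
  classical
  intro ε hε
  refine Eventually.of_forall fun i ω hω => ?_
  set n := F.n i with hn
  refine ⟨((Fintype.piFinset fun _ : Fin 2 => Finset.Ico (0 : ℤ) (2 ^ (c * n))) ×ˢ
    (Fintype.piFinset fun k : Fin 2 => Finset.Ico (2 ^ (c * n) * ((F.N c i ω).o k / 2 ^ (c * n)))
      (2 ^ (c * n) * ((F.N c i ω).o k / 2 ^ (c * n) + 1)))).image fun p => (⟨p.1, p.2, (F.N c i ω).T⟩ : Nd), ?_, ?_⟩
  · have h1 : ∀ k : Fin 2, (Finset.Ico (2 ^ (c * n) * ((F.N c i ω).o k / 2 ^ (c * n)))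
      (2 ^ (c * n) * ((F.N c i ω).o k / 2 ^ (c * n) + 1))).card = 2 ^ (c * n) := by
      intro k
      rw [Int.card_Ico]
      have : (2 : ℤ) ^ (c * n) * ((F.N c i ω).o k / 2 ^ (c * n) + 1) - 2 ^ (c * n) * ((F.N c i ω).o k / 2 ^ (c * n)) =
          ((2 ^ (c * n) : ℕ) : ℤ) := by
        push_cast
        ring
      rw [this, Int.toNat_natCast]
    have h2 : (Finset.Ico (0 : ℤ) (2 ^ (c * n))).card = 2 ^ (c * n) := by
      rw [Int.card_Ico, sub_zero]
      have : (2 : ℤ) ^ (c * n) = ((2 ^ (c * n) : ℕ) : ℤ) := by push_cast; rfl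
      rw [this, Int.toNat_natCast]
    have h3 : (((Fintype.piFinset fun _ : Fin 2 => Finset.Ico (0 : ℤ) (2 ^ (c * n))) ×ˢ
        (Fintype.piFinset fun k : Fin 2 => Finset.Ico (2 ^ (c * n) * ((F.N c i ω).o k / 2 ^ (c * n)))
        (2 ^ (c * n) * ((F.N c i ω).o k / 2 ^ (c * n) + 1)))).image fun p => (⟨p.1, p.2, (F.N c i ω).T⟩ : Nd)).card ≤
        2 ^ (4 * c * n) := by
      refine Finset.card_image_le.trans ?_
      rw [Finset.card_product, Fintype.card_piFinset, Fintype.card_piFinset, Finset.prod_congr rfl fun k _ => h1 k,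
        Finset.prod_congr rfl fun k _ => h2]
      simp only [Finset.prod_const, Finset.card_univ, Fintype.card_fin]
      rw [← pow_mul, ← pow_add]
      exact Nat.pow_le_pow_right (by norm_num) (by nlinarith)
    have h4 : (((2 ^ (4 * c * n) : ℕ)) : ℝ) ≤ (2 : ℝ) ^ ((4 * c / K + ε) * F.S.L i) := by
      rw [F.L_eq i]
      push_cast
      rw [← Real.rpow_natCast]
      refine Real.rpow_le_rpow_of_exponent_le (by norm_num) ?_
      have hK' : (0 : ℝ) < K := by exact_mod_cast hK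
      have h5 : (4 * (c : ℝ) / K + ε) * (K * F.n i) = 4 * c * F.n i + ε * (K * F.n i) := by
        field_simp
      rw [h5]
      push_cast
      have h6 : 0 ≤ ε * (K * (F.n i : ℝ)) := by positivity
      linarith
    exact le_trans (by exact_mod_cast h3) h4
  · intro ω' hω' e
    have e1 : (F.N c i ω').T = (F.N c i ω).T := congrArg Prod.fst e
    have e2 : ∀ k, (F.N c i ω').o k / 2 ^ (c * n) = (F.N c i ω).o k / 2 ^ (c * n) := fun k =>
      congrFun (congrArg Prod.snd e) k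
    rw [Finset.mem_image]
    refine ⟨((F.N c i ω').τ, (F.N c i ω').o), ?_, ?_⟩
    · rw [Finset.mem_product]
      constructor
      · rw [Fintype.mem_piFinset]
        intro k
        have := (chn F i ω' hω').cap c hc k
        rw [Finset.mem_Ico]
        exact this
      · rw [Fintype.mem_piFinset]
        intro k
        rw [Finset.mem_Ico, ← e2 k]
        have hp : (0 : ℤ) < 2 ^ (c * n) := by positivity
        exact ⟨Int.mul_ediv_self_le hp.ne', (Int.lt_mul_ediv_self_add hp).trans_eq (by ring)⟩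
    · simp only
      rw [← e1]

theorem nu_le_div (F : Flg K) (hK : 1 ≤ K) {c : ℕ} {m : ℕ → ℕ} (h : ∀ᶠ i in (uf : Filter ℕ), m i ≤ c * F.n i) :
    F.S.nu m ≤ c / K := by
  have hK' : (0 : ℝ) < K := by exact_mod_cast hK
  have h1 : ∀ᶠ i in (uf : Filter ℕ), (m i : ℝ) / F.S.L i ≤ c / K := by
    filter_upwards [h, F.S.L_pos] with i h1 h2
    have h3 : (0 : ℝ) < F.S.L i := by exact_mod_cast h2
    rw [div_le_div_iff₀ h3 hK', F.L_eq i]
    have h4 : (m i : ℝ) ≤ c * F.n i := by exact_mod_cast h1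
    push_cast
    nlinarith
  refine ulim_le_const (UB.of_le (C := c / K) ?_ h1) h1
  exact Eventually.of_forall fun i => by positivity

/-- crude bound of the excess -/
theorem e_le {F : Flg K} {J θ H e : ℕ → ℝ} {W : ℕ → F.S.BX} {kk jj : ℕ → ℕ → ℕ} (hK : 1 ≤ K)
    (R : RegA F J θ H e W kk jj) {c : ℕ} (hc : c ≤ K) : e c ≤ 4 * c / K + 1 / K := by
  have h := cts hK R
  have tN := h.tre.tN c hc
  have h1 := cnt_hc_le (R.W1 c hc)
  have h2 := cnt_hc_le (cnt_ball F hK hc)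
  have h3 := h.hN c hc
  have tLB : Tame (Sys.pr (BX.lab (W c)) (F.ball c)) := cnt_tame (R.W1 c hc)
  have h4 := hc_le_add tN tLB (one (S := F.S))
  have h5 : F.S.hc (F.N c) (Sys.pr (Sys.pr (BX.lab (W c)) (F.ball c)) one) ≤ F.S.hc (F.N c) (F.ball c) :=
    hc_mono_right tN (ftr (fsnd _ _) (ffst _ _))
  have h6 : F.S.nu (jj c) ≤ c / K := by
    refine nu_le_div F hK ?_
    filter_upwards [R.Wok c hc] with i hi
    obtain ⟨ω, hω⟩ := law_pos (F.S.P i)
    exact (hi ω hω).2.2.2.2.2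
  have h7 : F.S.nu (kk c) ≤ c / K := by
    refine nu_le_div F hK ?_
    filter_upwards [R.Wok c hc] with i hi
    obtain ⟨ω, hω⟩ := law_pos (F.S.P i)
    exact (hi ω hω).2.2.2.2.1.trans (hi ω hω).2.2.2.2.2
  have h8 : F.S.h (F.N c) = F.S.hc (F.N c) one := rfl
  have h9 : 2 * (c : ℝ) / K = c / K + c / K := by ring
  linarith

/-! ### the frames -/

theorem pow_half_pos (x : ℝ) : (0 : ℝ) < (2 : ℝ) ^ x := Real.rpow_pos_of_pos (by norm_num) _

/-- the frame of `sig i j` and its compatibility with the frames of all levels -/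
theorem frames {κ C : ℝ} (h8 : E8 κ C) {F : Flg K} {J θ H e : ℕ → ℝ} {W : ℕ → F.S.BX} {kk jj : ℕ → ℕ → ℕ} {c1 : ℝ}
    {φ : ℕ → ℕ → Nd → ℝ} {JF : ℕ → ℝ} (hK : 1 ≤ K) (c0 : 0 < c1) (cK : C / K ≤ c1)
    (R : RegB F J θ H e W kk jj κ c1 φ JF) {i j : ℕ} (ij : i ≤ j) (j3 : 2 * j ≤ 3 * i) (i1 : j < 2 * i) (jK : j ≤ K)
    (near : ((j:ℝ) - i) / K ≤ κ * c1) (thin : ∀ c, 2 * i - j ≤ c → c ≤ j → Thin F e jj κ c1 c) :
    ∃ ψ : ℕ → Nd → ℝ,
      (Rare F.S fun a ω => (2 : ℝ) ^ (-(c1 / 2 * F.S.L a)) < |Real.sin ((W i a).θ ω - ψ a (F.sig i j a ω))|) ∧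
      ∀ c, 2 * i - j ≤ c → c < j → FrC F φ c1 ψ i j c := by
  have hKp : (0 : ℝ) < K := by exact_mod_cast hK
  have hij' : (i : ℝ) ≤ j := by exact_mod_cast ij
  have ti := thin i (by omega) ij
  obtain ⟨ψ, hψ, -⟩ := h8 F J θ H e W kk jj hK R.toRegA c1 i i j c0 (by omega) le_rfl ij i1.le jK near cK ti ti
  refine ⟨ψ, hψ, fun c hc hcj => ?_⟩
  have tc := thin c hc hcj.le
  -- comparison of the planks of the levels `c` and `i`
  have key : ∃ (ψ' : ℕ → Nd → ℝ) (b : ℕ) (d : ℕ),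
      (Rare F.S fun a ω => (2 : ℝ) ^ (-(c1 / 2 * F.S.L a)) < |Real.sin ((W c a).θ ω - ψ' a (F.sig b d a ω))|) ∧
      (Rare F.S fun a ω => (2 : ℝ) ^ (-(c1 / 2 * F.S.L a)) < |Real.sin ((W i a).θ ω - ψ' a (F.sig b d a ω))|) := by
    rcases le_total c i with hci | hic
    · have h1 : ((i:ℝ) - c) / K ≤ κ * c1 := by
        refine le_trans (div_le_div_of_nonneg_right ?_ hKp.le) near
        have h2 : 2 * i ≤ c + j := by omega
        have h3 : 2 * (i:ℝ) ≤ c + j := by exact_mod_cast h2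
        linarith
      obtain ⟨ψ', h1, h2⟩ := h8 F J θ H e W kk jj hK R.toRegA c1 c i i c0 (by omega) hci le_rfl (by omega) (by omega)
        h1 cK tc ti
      exact ⟨ψ', c, i, h1, h2⟩
    · have h1 : ((c:ℝ) - i) / K ≤ κ * c1 := by
        refine le_trans (div_le_div_of_nonneg_right ?_ hKp.le) near
        have h3 : (c:ℝ) ≤ j := by exact_mod_cast hcj.le
        linarith
      obtain ⟨ψ', h1, h2⟩ := h8 F J θ H e W kk jj hK R.toRegA c1 i c c c0 (by omega) hic le_rfl (by omega) (by omega)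
        h1 cK ti tc
      exact ⟨ψ', i, c, h2, h1⟩
  obtain ⟨ψ', b, d, h1, h2⟩ := key
  refine Rare.mono (Rare.or h1 (Rare.or h2 hψ)) ?_
  filter_upwards [R.frame c (by omega) (by omega) tc] with a ha ω hω hbad
  by_contra hcon
  push Not at hcon
  obtain ⟨g1, g2, g3⟩ := hcon
  have g0 := ha ω hω
  have k1 := sin_tri (φ c a (F.sg c a ω)) ((W c a).θ ω) (ψ a (F.sig i j a ω))
  have k2 := sin_tri ((W c a).θ ω) (ψ' a (F.sig b d a ω)) (ψ a (F.sig i j a ω))
  have k3 := sin_tri (ψ' a (F.sig b d a ω)) ((W i a).θ ω) (ψ a (F.sig i j a ω))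
  rw [sin_symm] at g0
  rw [sin_symm (ψ' a (F.sig b d a ω)) ((W i a).θ ω)] at k3
  linarith

/-! ### the assembly -/

/-- **E9 = (P)** from the three blocks and the frames -/
theorem e9_of {κ₁ C₁ κ₂ C₂ κ₃ C₃ κ₄ C₄ : ℝ} (hκ₁ : 0 < κ₁) (hκ₂ : 0 < κ₂) (hκ₃ : 0 < κ₃) (hκ₄ : 0 < κ₄)
    (h8 : E8 κ₁ C₁) (hB : BoxP κ₂ C₂) (hQ : QHalf κ₃ C₃) (hP : PHalf κ₄ C₄) :
    ∃ κ₀ : ℝ, 0 < κ₀ ∧ ∃ C₀ : ℝ, ∀ κ, 0 < κ → κ ≤ κ₀ → E9 κ C₀ := by
  refine ⟨min (1 / 10) (min κ₁ (min κ₂ (min κ₃ κ₄))), ?_, max C₁ 0 + max C₂ 0 + max C₃ 0 + max C₄ 0 + 2, ?_⟩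
  · refine lt_min (by norm_num) (lt_min hκ₁ (lt_min hκ₂ (lt_min hκ₃ hκ₄)))
  intro κ hκ hκ' K F J θ H e W kk jj c1 φ JF hK hc1 hC R i j u ij j2 jK iu near thin hα
  have hκa : κ ≤ 1 / 10 := hκ'.trans (min_le_left _ _)
  have hκb := hκ'.trans (min_le_right _ _)
  have hκc : κ ≤ κ₁ := hκb.trans (min_le_left _ _)
  have hκd := hκb.trans (min_le_right _ _)
  have hκe : κ ≤ κ₂ := hκd.trans (min_le_left _ _)
  have hκf := hκd.trans (min_le_right _ _)
  have hκg : κ ≤ κ₃ := hκf.trans (min_le_left _ _)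
  have hκh : κ ≤ κ₄ := hκf.trans (min_le_right _ _)
  have hKp : (0 : ℝ) < K := by exact_mod_cast hK
  have hC0 : C₁ ≤ max C₁ 0 := le_max_left _ _
  have hC1 : 0 ≤ max C₁ 0 := le_max_right _ _
  have hC2 : C₂ ≤ max C₂ 0 := le_max_left _ _
  have hC3 : 0 ≤ max C₂ 0 := le_max_right _ _
  have hC4 : C₃ ≤ max C₃ 0 := le_max_left _ _
  have hC5 : 0 ≤ max C₃ 0 := le_max_right _ _
  have hC6 : C₄ ≤ max C₄ 0 := le_max_left _ _
  have hC7 : 0 ≤ max C₄ 0 := le_max_right _ _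
  set C₀ : ℝ := max C₁ 0 + max C₂ 0 + max C₃ 0 + max C₄ 0 + 2 with hCdef
  have hdiv : ∀ x : ℝ, x ≤ C₀ → x / K ≤ C₀ / K := fun x hx => div_le_div_of_nonneg_right hx hKp.le
  have hCpos : 0 ≤ C₀ / K := div_nonneg (by linarith) hKp.le
  -- the case `i = 0`
  rcases Nat.eq_zero_or_pos i with hi0 | hi0
  · subst hi0
    have hj0 : j = 0 := by omega
    subst hj0
    have hu0 : u = 0 := by omega
    subst hu0
    simp only [sub_self, mul_zero, add_zero]
    linarith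
  -- `2 i - j` is positive, `3 j ≤ 4 i`
  have hcrude := e_le hK R.toRegA (c := 2 * i - j) (by omega)
  have hthin0 := (thin (2 * i - j) le_rfl (by omega)).1
  have hcast : ((2 * i - j : ℕ) : ℝ) = 2 * i - j := by
    rw [Nat.cast_sub j2]
    push_cast
    ring
  rw [hcast] at hcrude
  have hc1' : c1 ≤ (4 * (2 * (i:ℝ) - j) + 1) / K := by
    have : 4 * (2 * (i:ℝ) - j) / K + 1 / K = (4 * (2 * (i:ℝ) - j) + 1) / K := by ring
    linarith
  have i1 : j < 2 * i := by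
    rcases j2.lt_or_eq with h | h
    · exact h
    · exfalso
      have h1 : (j : ℝ) = 2 * i := by exact_mod_cast h
      rw [h1] at hc1'
      have h2 : C₀ / K ≤ 1 / K := by
        refine hC.trans (hc1'.trans_eq ?_)
        ring
      have h3 : C₀ ≤ 1 := by
        rwa [div_le_div_iff_of_pos_right hKp] at h2
      linarith
  have j3 : 2 * j ≤ 3 * i := by
    have h1 : ((j:ℝ) - i) / K ≤ (1 / 10) * ((4 * (2 * (i:ℝ) - j) + 1) / K) := by
      refine near.trans ?_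
      have : 0 ≤ (4 * (2 * (i:ℝ) - j) + 1) / K := hc1.le.trans hc1'
      nlinarith
    rw [← mul_div_assoc, div_le_div_iff_of_pos_right hKp] at h1
    have h2 : (1 : ℝ) ≤ 2 * i - j := by
      have : j + 1 ≤ 2 * i := i1
      have : (j : ℝ) + 1 ≤ 2 * i := by exact_mod_cast this
      linarith
    have h3 : (2 * j : ℝ) ≤ 3 * i := by linarith
    exact_mod_cast h3
  obtain ⟨ψ, hfr, hfrc⟩ := frames (H563.E8.mono le_rfl hκc h8) hK hc1 ((hdiv C₁ (by linarith)).trans hC) R ij j3 i1 jK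
    near thin
  have ctx : ∀ x : ℝ, x ≤ C₀ → Ctx κ x F J θ H e W kk jj c1 φ JF ψ i j u := fun x hx =>
    ⟨hκ, hK, hc1, (hdiv x hx).trans hC, R, ij, i1, jK, iu, near, thin, hfr, hfrc⟩
  have b1 := hB κ F J θ H e W kk jj c1 φ JF ψ i j u hκe (ctx C₂ (by linarith)) hα
  have b2 := hQ κ F J θ H e W kk jj c1 φ JF ψ i j u hκg (ctx C₃ (by linarith))
  have b3 := hP κ F J θ H e W kk jj c1 φ JF ψ i j u hκh (ctx C₄ (by linarith))
  -- chain rule
  have h := cts hK R.toRegA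
  have tNi := h.tre.tN i (ij.trans jK)
  have tNj := h.tre.tN j jK
  have tsig : Tame (F.sig i j) := by
    refine tNi.mono (Eventually.of_forall fun a ω ω' _ _ e => ?_)
    have e' : F.N i a ω = F.N i a ω' := e
    show Nd.mk _ _ _ = Nd.mk _ _ _
    rw [e']
  have fsigN : Sys.Fn (F.sig i j) (F.N i) := by
    refine Eventually.of_forall fun a ω ω' _ _ e => ?_
    have e' : F.N i a ω = F.N i a ω' := e
    show Nd.mk _ _ _ = Nd.mk _ _ _
    rw [e']
  have fdp : Sys.Fn (dp F ψ i j u) (F.N i) := by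
    filter_upwards [fsigN] with a ha ω ω' hω hω' e
    have e' : F.N i a ω = F.N i a ω' := e
    have e2 := ha ω ω' hω hω' e
    unfold dp
    rw [e', e2]
  have fdq : Sys.Fn (dq F ψ i j u) (F.N i) := by
    filter_upwards [fsigN] with a ha ω ω' hω hω' e
    have e' : F.N i a ω = F.N i a ω' := e
    have e2 := ha ω ω' hω hω' e
    unfold dq Flg.Y
    rw [e', e2]
  have tdp := tNi.mono fdp
  have tdq := tNi.mono fdq
  have fdq2 : Sys.Fn (dq F ψ i j u) (Sys.pr (F.sig i j) (F.N j)) := by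
    filter_upwards [ftr (h.tre.YY' ij jK) (h.tre.YN j jK)] with a ha ω ω' hω hω' e
    have e1 : F.sig i j a ω = F.sig i j a ω' := congrArg Prod.fst e
    have e2 : F.Y i a ω = F.Y i a ω' := ha ω ω' hω hω' (congrArg Prod.snd e)
    unfold dq
    rw [e1, e2]
  have c1' : F.S.hc (Sys.pr (dp F ψ i j u) (dq F ψ i j u)) (F.sig i j) =
      F.S.hc (Sys.pr (dq F ψ i j u) (dp F ψ i j u)) (F.sig i j) := by
    refine hc_congr ?_ ?_ (frf _) (frf _)
    · exact ftr (fpr (fsnd _ _) (ffst _ _)) (ffst _ _)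
    · exact ftr (fpr (fsnd _ _) (ffst _ _)) (ffst _ _)
  have c2' := hc_pair tdq tdp (F.sig i j)
  have c3' : F.S.hc (dp F ψ i j u) (Sys.pr (F.sig i j) (F.N j)) ≤
      F.S.hc (dp F ψ i j u) (Sys.pr (dq F ψ i j u) (F.sig i j)) :=
    hc_mono_right tdp (fpr fdq2 (ffst _ _))
  -- the identity for `E`
  have d1 := h.En_sub ij jK
  have d2 := h.Cn_ge ij jK
  have d3 := h.Dn_nonneg ij jK
  have d4 : F.S.hc (F.N i) (Sys.pr (F.sig i j) (F.N j)) = F.S.hc (F.N i) (Sys.pr (F.T i) (F.N j)) := by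
    have g1 : F.S.hc (F.N i) (Sys.pr (F.sig i j) (Sys.pr (F.T i) (F.N j))) =
        F.S.hc (F.N i) (Sys.pr (F.T i) (F.N j)) := hc_cond_zero tNi tsig (sig_TN F ij jK)
    rw [← g1]
    refine hc_congr (ffst _ _) (ffst _ _) ?_ ?_
    · exact fpr (ffst _ _) (ftr (fsnd _ _) (fsnd _ _))
    · have fT : Sys.Fn (F.T i) (F.sig i j) := Eventually.of_forall fun a ω ω' _ _ e => by
        have e' : F.sig i j a ω = F.sig i j a ω' := e
        have e2 := congrArg Nd.T e'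
        exact e2
      exact fpr (ffst _ _) (fpr (ftr fT (ffst _ _)) (fsnd _ _))
  have d5 : nE K J θ H j - nE K J θ H i = Cts.En K H J θ j - Cts.En K H J θ i := rfl
  have d6 : F.D i j = Cts.Dn F.S K F.N F.T i j := rfl
  have d7 : Cts.Cn F.S K F.N F.T i j = 2 * ((j:ℝ) - i) / K - F.S.hc (F.N i) (Sys.pr (F.sig i j) (F.N j)) := by
    rw [d4]
    rfl
  have n1 : ng F e jj κ c1 JF j - ng F e jj κ c1 JF (i + u) = ∑ c ∈ Ico (i + u) j, JF c :=
    ng_sub F e jj κ c1 JF iu (by omega) fun c hc hc' => thin c (by omega) hc'.le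
  have n2 : ng F e jj κ c1 JF (i - u) - ng F e jj κ c1 JF (2 * i - j) = ∑ c ∈ Ico (2 * i - j) (i - u), JF c :=
    ng_sub F e jj κ c1 JF (by omega) (by omega) fun c hc hc' => thin c hc (by omega)
  rw [n1, n2, d5, d1]
  rw [d6] at b1
  rw [← d7] at b3
  have e3 : C₂ / K + C₃ / K + C₄ / K ≤ C₀ / K := by
    rw [← add_div, ← add_div]
    exact hdiv _ (by linarith)
  linarith

end Vale.Agent.P122.H465
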