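import Vale.Agent.P122.H540.Spec
import Vale.Agent.P122.H465.E9

/-!
# P122 / `StExc` : `e c ≤ 2 c / K - ν kk - ν jj + 1 / K` (helper465)
-/

set_option autoImplicit false

namespace Vale.Agent.P122.H465

open Filter Topology Finset Vale.Agent.P127 Vale.Agent.P127.Stk Vale.Agent.P127.U Vale.Agent.P127.U.Sys Vale.Agent.P122.C2
  Vale.Agent.P122.E Vale.Agent.P122.H518 Vale.Agent.P122.H265 Vale.Agent.P122.H540

variable {K : ℕ}

/-- a node known up to `O(1)` caps and offsets -/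
theorem zero_nd' {S : Sys} {γ : Type*} (X : S.RV Nd) (Z : S.RV γ) (B : ℕ)
    (h : ∀ᶠ i in (uf : Filter ℕ), ∀ ω ω', 0 < (S.P i).w ω → 0 < (S.P i).w ω' → Z i ω' = Z i ω →
      (∀ k, |(X i ω').τ k - (X i ω).τ k| ≤ B) ∧ (X i ω').T = (X i ω).T ∧ ∀ k, |(X i ω').o k - (X i ω).o k| ≤ B) :
    S.hc X Z = 0 := by
  classical
  refine hc_zero_of_le (Real.log (((2 * B + 1) ^ 4 : ℕ) : ℝ)) ?_
  filter_upwards [h] with i hi
  refine Stk.hc_le_log (S.P i) (X i) (Z i) _ fun ω hω => ?_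
  refine ⟨((Fintype.piFinset fun k => Finset.Icc ((X i ω).τ k - B) ((X i ω).τ k + B)) ×ˢ
    (Fintype.piFinset fun k => Finset.Icc ((X i ω).o k - B) ((X i ω).o k + B))).image
    fun o => (⟨o.1, o.2, (X i ω).T⟩ : Nd), ?_, ?_⟩
  · refine Finset.card_image_le.trans ?_
    rw [Finset.card_product, Fintype.card_piFinset, Fintype.card_piFinset]
    have h1 : ∀ (a : ℤ), (Finset.Icc (a - (B : ℤ)) (a + B)).card = 2 * B + 1 := by
      intro a
      rw [Int.card_Icc]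
      omega
    rw [Finset.prod_congr rfl fun k _ => h1 _, Finset.prod_congr rfl fun k _ => h1 _]
    simp only [Finset.prod_const, Finset.card_univ, Fintype.card_fin]
    rw [← pow_add]
  · intro ω' hω' e
    obtain ⟨h1, h2, h3⟩ := hi ω ω' hω hω' e
    rw [Finset.mem_image]
    refine ⟨((X i ω').τ, (X i ω').o), ?_, ?_⟩
    · rw [Finset.mem_product, Fintype.mem_piFinset, Fintype.mem_piFinset]
      constructor
      · intro k
        have := abs_le.1 (h1 k)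
        rw [Finset.mem_Icc]
        constructor <;> linarith [this.1, this.2]
      · intro k
        have := abs_le.1 (h3 k)
        rw [Finset.mem_Icc]
        constructor <;> linarith [this.1, this.2]
    · simp only
      rw [← h2]

theorem fl1_mem {k m : ℕ} (hkm : k ≤ m) {x : ℝ} {a : ℤ} (h : fl1 k x = a) :
    fl1 m x ∈ Finset.Ico ((2 : ℤ) ^ (m - k) * a) (2 ^ (m - k) * (a + 1)) := by
  unfold fl1 at h ⊢
  obtain ⟨h1, h2⟩ := Int.floor_eq_iff.1 h
  have hp : (0 : ℝ) < 2 ^ (m - k) := by positivity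
  have e : (2 : ℝ) ^ m = 2 ^ (m - k) * 2 ^ k := by
    rw [← pow_add]
    congr 1
    omega
  rw [Finset.mem_Ico]
  constructor
  · rw [Int.le_floor]
    push_cast
    rw [e, mul_assoc]
    exact mul_le_mul_of_nonneg_left h1 hp.le
  · rw [Int.floor_lt]
    push_cast
    rw [e, mul_assoc]
    exact mul_lt_mul_of_pos_left h2 hp

theorem card_dyad (m k : ℕ) (a : ℤ) : (Finset.Ico ((2 : ℤ) ^ (m - k) * a) (2 ^ (m - k) * (a + 1))).card = 2 ^ (m - k) := by
  rw [Int.card_Ico]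
  have : (2 : ℤ) ^ (m - k) * (a + 1) - 2 ^ (m - k) * a = ((2 ^ (m - k) : ℕ) : ℤ) := by
    push_cast
    ring
  rw [this, Int.toNat_natCast]

/-- coordinates back from a frame -/
theorem abs_of_co {θ : ℝ} {v : Fin 2 → ℝ} {x : ℝ} (h0 : |co θ v 0| ≤ x) (h1 : |co θ v 1| ≤ x) (k : Fin 2) :
    |v k| ≤ 2 * x := by
  have hc := Real.abs_cos_le_one θ
  have hs := Real.abs_sin_le_one θ
  have hx : 0 ≤ x := (abs_nonneg _).trans h0
  have h := Real.sin_sq_add_cos_sq θ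
  have e0 : v 0 = Real.cos θ * co θ v 0 + -Real.sin θ * co θ v 1 := by
    simp only [co, Matrix.cons_val_zero, Matrix.cons_val_one]
    linear_combination (-v 0) * h
  have e1 : v 1 = Real.sin θ * co θ v 0 + Real.cos θ * co θ v 1 := by
    simp only [co, Matrix.cons_val_zero, Matrix.cons_val_one]
    linear_combination (-v 1) * h
  have b : ∀ a c y : ℝ, |a| ≤ 1 → |y| ≤ x → |a * y| ≤ x := fun a _ y ha hy => by
    rw [abs_mul]
    nlinarith [abs_nonneg a, abs_nonneg y]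
  fin_cases k
  · show |v 0| ≤ 2 * x
    rw [e0]
    refine (abs_add_le _ _).trans ?_
    have g1 := b _ 0 _ hc h0
    have g2 := b (-Real.sin θ) 0 _ (by rwa [abs_neg]) h1
    linarith
  · show |v 1| ≤ 2 * x
    rw [e1]
    refine (abs_add_le _ _).trans ?_
    have g1 := b _ 0 _ hs h0
    have g2 := b _ 0 _ hc h1
    linarith

/-- the digits of the line in the frame of the plank, precision of the level -/
noncomputable def xf (F : Flg K) (W : ℕ → F.S.BX) (c : ℕ) : F.S.RV ((ℤ × ℤ) × (ℤ × ℤ)) := fun i ω =>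
  (fkj (F.m c i) (F.m c i) (co (qa ((W c i).j ω - (W c i).k ω) ((W c i).θ ω)) (F.ln c i ω).1),
    fkj (F.m c i) (F.m c i) (co (qa ((W c i).j ω - (W c i).k ω) ((W c i).θ ω)) (F.ln c i ω).2))

theorem nu_tendsto (F : Flg K) (hK : 1 ≤ K) {c : ℕ} {m : ℕ → ℕ} (h : ∀ᶠ i in (uf : Filter ℕ), m i ≤ c * F.n i) :
    Tendsto (fun i => (m i : ℝ) / F.S.L i) (uf : Filter ℕ) (𝓝 (F.S.nu m)) := by
  have hKp : (0 : ℝ) < K := by exact_mod_cast hK
  have hub : UB fun i => (m i : ℝ) / F.S.L i := by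
    refine UB.of_le (C := c / K) (Eventually.of_forall fun i => by positivity) ?_
    filter_upwards [h, F.S.L_pos] with i h1 h2
    have h3 : (0 : ℝ) < F.S.L i := by exact_mod_cast h2
    rw [div_le_div_iff₀ h3 hKp, F.L_eq i]
    have h4 : (m i : ℝ) ≤ c * F.n i := by exact_mod_cast h1
    push_cast
    nlinarith
  exact hub.tendsto

/-- equality of the labels, as equality of the fields -/
theorem lab_fields {θ θ' : ℝ} {k j k' j' : ℕ} {l l' : Ln} (h : U.lab θ k j l = U.lab θ' k' j' l') :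
    k = k' ∧ j = j' ∧ qa (j - k) θ = qa (j' - k') θ' ∧
      fkj k j (co (qa (j - k) θ) l.1) = fkj k' j' (co (qa (j' - k') θ') l'.1) ∧
      fkj k j (co (qa (j - k) θ) l.2) = fkj k' j' (co (qa (j' - k') θ') l'.2) := by
  unfold U.lab at h
  simp only [Prod.mk.injEq] at h
  obtain ⟨h1, h2, h3, h4, h5⟩ := h
  refine ⟨h1, h2, ?_, h4, h5⟩
  subst h1 h2
  unfold qa
  rw [h3]

theorem cnt_xf {F : Flg K} {J θ H e : ℕ → ℝ} {W : ℕ → F.S.BX} {kk jj : ℕ → ℕ → ℕ} (hK : 1 ≤ K)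
    (R : RegA F J θ H e W kk jj) {c : ℕ} (hc : c ≤ K) :
    Cnt F.S (xf F W c) (vL F W c) (2 * (2 * c / K - F.S.nu (kk c) - F.S.nu (jj c))) := by
  classical
  intro ε hε
  have hKp : (0 : ℝ) < K := by exact_mod_cast hK
  have hW := R.Wok c hc
  have hj : ∀ᶠ i in (uf : Filter ℕ), jj c i ≤ c * F.n i := by
    filter_upwards [hW] with a ha
    obtain ⟨ω, hω⟩ := law_pos (F.S.P a)
    exact (ha ω hω).2.2.2.2.2
  have hk : ∀ᶠ i in (uf : Filter ℕ), kk c i ≤ c * F.n i := by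
    filter_upwards [hW] with a ha
    obtain ⟨ω, hω⟩ := law_pos (F.S.P a)
    exact (ha ω hω).2.2.2.2.1.trans (ha ω hω).2.2.2.2.2
  have t1 := nu_tendsto F hK hj
  have t2 := nu_tendsto F hK hk
  have t3 : Tendsto (fun i => 2 * (2 * (c : ℝ) / K - (kk c i : ℝ) / F.S.L i - (jj c i : ℝ) / F.S.L i)) (uf : Filter ℕ)
      (𝓝 (2 * (2 * c / K - F.S.nu (kk c) - F.S.nu (jj c)))) :=
    ((tendsto_const_nhds.sub t2).sub t1).const_mul 2
  have t4 : ∀ᶠ i in (uf : Filter ℕ), 2 * (2 * (c : ℝ) / K - (kk c i : ℝ) / F.S.L i - (jj c i : ℝ) / F.S.L i) <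
      2 * (2 * c / K - F.S.nu (kk c) - F.S.nu (jj c)) + ε :=
    t3.eventually (eventually_lt_nhds (lt_add_of_pos_right _ hε))
  filter_upwards [hW, t4, F.S.L_pos] with i hi h4 hL ω hω
  have hL' : (0 : ℝ) < F.S.L i := by exact_mod_cast hL
  set k := kk c i with hkdef
  set j := jj c i with hjdef
  set m := F.m c i with hm
  set l := F.ln c i ω with hl
  set q := qa (j - k) ((W c i).θ ω) with hq
  obtain ⟨w1, w2, w3, w4, w5, w6⟩ := hi ω hω
  set U₁ : Finset (ℤ × ℤ) := Finset.Ico ((2 : ℤ) ^ (m - k) * fl1 k (co q l.1 0)) (2 ^ (m - k) * (fl1 k (co q l.1 0) + 1)) ×ˢ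
    Finset.Ico ((2 : ℤ) ^ (m - j) * fl1 j (co q l.1 1)) (2 ^ (m - j) * (fl1 j (co q l.1 1) + 1)) with hU₁
  set U₂ : Finset (ℤ × ℤ) := Finset.Ico ((2 : ℤ) ^ (m - k) * fl1 k (co q l.2 0)) (2 ^ (m - k) * (fl1 k (co q l.2 0) + 1)) ×ˢ
    Finset.Ico ((2 : ℤ) ^ (m - j) * fl1 j (co q l.2 1)) (2 ^ (m - j) * (fl1 j (co q l.2 1) + 1)) with hU₂
  refine ⟨U₁ ×ˢ U₂, ?_, ?_⟩
  · rw [Finset.card_product, hU₁, hU₂, Finset.card_product, Finset.card_product, card_dyad, card_dyad, card_dyad,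
      card_dyad, ← pow_add, ← pow_add]
    have hjm : j ≤ m := w6
    have hkj : k ≤ j := w5
    have e1 : m - k + (m - j) + (m - k + (m - j)) = 2 * (2 * m - k - j) := by omega
    rw [e1]
    push_cast
    rw [← Real.rpow_natCast]
    refine Real.rpow_le_rpow_of_exponent_le (by norm_num) ?_
    have e2 : ((2 * (2 * m - k - j) : ℕ) : ℝ) = 2 * (2 * m - k - j) := by
      have : k + j ≤ 2 * m := by omega
      rw [Nat.sub_sub, Nat.cast_mul, Nat.cast_sub this]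
      push_cast
      ring
    rw [e2]
    have e3 : (2 * (2 * (c : ℝ) / K - (k : ℝ) / F.S.L i - (j : ℝ) / F.S.L i)) * F.S.L i = 2 * (2 * m - k - j) := by
      have e4 : (m : ℝ) = c * F.n i := by rw [hm]; unfold Flg.m; push_cast; ring
      have e5 : (F.S.L i : ℝ) = K * F.n i := by rw [F.L_eq i]; push_cast; ring
      have e6 : 2 * (c : ℝ) / K * F.S.L i = 2 * m := by
        rw [e4, e5]
        field_simp
      field_simp
      field_simp at e6
      linarith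
    rw [← e3]
    exact mul_le_mul_of_nonneg_right h4.le hL'.le
  · intro ω' hω' e
    obtain ⟨w1', w2', w3', w4', w5', w6'⟩ := hi ω' hω'
    have e0 : U.lab ((W c i).θ ω') ((W c i).k ω') ((W c i).j ω') ((W c i).l ω') =
        U.lab ((W c i).θ ω) ((W c i).k ω) ((W c i).j ω) ((W c i).l ω) := congrArg Prod.fst e
    rw [w1, w1', w3, w3', w4, w4'] at e0
    obtain ⟨-, -, g1, g2, g3⟩ := lab_fields e0
    rw [Finset.mem_product]
    have hx : xf F W c i ω' = (fkj m m (co q (F.ln c i ω').1), fkj m m (co q (F.ln c i ω').2)) := by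
      unfold xf
      rw [w3', w4', g1]
    rw [hx]
    rw [g1] at g2 g3
    have g2a := congrArg Prod.fst g2
    have g2b := congrArg Prod.snd g2
    have g3a := congrArg Prod.fst g3
    have g3b := congrArg Prod.snd g3
    have hjm : j ≤ m := w6
    have hkm : k ≤ m := w5.trans w6
    exact ⟨Finset.mem_product.2 ⟨fl1_mem hkm g2a, fl1_mem hjm g2b⟩,
      Finset.mem_product.2 ⟨fl1_mem hkm g3a, fl1_mem hjm g3b⟩⟩

theorem fract_div_sub (a b : ℤ) (m : ℕ) (h : a / 2 ^ m = b / 2 ^ m) :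
    Int.fract ((a : ℝ) / 2 ^ m) - Int.fract ((b : ℝ) / 2 ^ m) = ((a : ℝ) - b) / 2 ^ m := by
  have e : ∀ x : ℤ, ⌊(x : ℝ) / 2 ^ m⌋ = x / 2 ^ m := by
    intro x
    have h2 : (2 : ℝ) ^ m = (((2 ^ m : ℕ) : ℤ) : ℝ) := by push_cast; rfl
    rw [h2, Int.cast_natCast, Int.floor_div_natCast, Int.floor_intCast]
    push_cast
    rfl
  unfold Int.fract
  rw [e a, e b, h]
  ring

theorem hc_N_xf {F : Flg K} {J θ H e : ℕ → ℝ} {W : ℕ → F.S.BX} {kk jj : ℕ → ℕ → ℕ}
    (R : RegA F J θ H e W kk jj) {c : ℕ} (hc : c ≤ K) :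
    F.S.hc (F.N c) (Sys.pr (xf F W c) (vL F W c)) = 0 := by
  have hC0 : 0 ≤ F.C := Vale.Agent.P122.H474.Chn.C_nonneg (F.slp 0)
  obtain ⟨B, hB⟩ := exists_nat_ge (5 * F.C + 2)
  refine zero_nd' _ _ B ?_
  filter_upwards [R.Wok c hc] with i hi ω ω' hω hω' e
  obtain ⟨w1, w2, w3, w4, w5, w6⟩ := hi ω hω
  obtain ⟨w1', w2', w3', w4', w5', w6'⟩ := hi ω' hω'
  have ex : xf F W c i ω' = xf F W c i ω := congrArg Prod.fst e
  have eV : vL F W c i ω' = vL F W c i ω := congrArg Prod.snd e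
  have e0 : U.lab ((W c i).θ ω') ((W c i).k ω') ((W c i).j ω') ((W c i).l ω') =
      U.lab ((W c i).θ ω) ((W c i).k ω) ((W c i).j ω) ((W c i).l ω) := congrArg Prod.fst eV
  have eb : F.ball c i ω' = F.ball c i ω := congrArg Prod.snd eV
  obtain ⟨-, -, g1, -, -⟩ := lab_fields e0
  unfold xf at ex
  rw [g1] at ex
  set q := qa ((W c i).j ω - (W c i).k ω) ((W c i).θ ω) with hq
  set m := F.m c i with hm
  have hp : (0 : ℝ) < 2 ^ m := by positivity
  have hhalf : (1 / 2 : ℝ) ^ m = 1 / 2 ^ m := by rw [div_pow, one_pow]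
  -- differences in the frame
  have hd : ∀ v w : Fin 2 → ℝ, fkj m m (co q v) = fkj m m (co q w) → ∀ k, |v k - w k| ≤ 2 * (1 / 2 : ℝ) ^ m := by
    intro v w h k
    have h0 : |co q v 0 - co q w 0| ≤ (1 / 2 : ℝ) ^ m := fl1_close (congrArg Prod.fst h)
    have h1 : |co q v 1 - co q w 1| ≤ (1 / 2 : ℝ) ^ m := fl1_close (congrArg Prod.snd h)
    rw [← co_sub] at h0 h1
    exact abs_of_co h0 h1 k
  have d1 := hd _ _ (congrArg Prod.fst ex)
  have d2 := hd _ _ (congrArg Prod.snd ex)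
  refine ⟨?_, congrArg Prod.fst eb, ?_⟩
  · have hcap := (chn F i ω hω).cap c hc
    have hcap' := (chn F i ω' hω').cap c hc
    have h1 := (F.slp i).colip c _ _ hc hcap' hcap
    have hm' : c * F.n i = m := rfl
    rw [hm'] at h1
    have d2a : |F.s i c (F.N c i ω').τ 0 - F.s i c (F.N c i ω).τ 0| ≤ 2 * (1 / 2 : ℝ) ^ m := d2 0
    have d2b : |F.s i c (F.N c i ω').τ 1 - F.s i c (F.N c i ω).τ 1| ≤ 2 * (1 / 2 : ℝ) ^ m := d2 1
    have h2 : (2 : ℝ) ^ m * (|F.s i c (F.N c i ω').τ 0 - F.s i c (F.N c i ω).τ 0| +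
        |F.s i c (F.N c i ω').τ 1 - F.s i c (F.N c i ω).τ 1|) ≤ 4 := by
      calc (2 : ℝ) ^ m * (|F.s i c (F.N c i ω').τ 0 - F.s i c (F.N c i ω).τ 0| +
          |F.s i c (F.N c i ω').τ 1 - F.s i c (F.N c i ω).τ 1|)
          ≤ 2 ^ m * (2 * (1 / 2 : ℝ) ^ m + 2 * (1 / 2 : ℝ) ^ m) := by gcongr
        _ = 4 := by
          rw [hhalf]
          field_simp
          norm_num
    have h3 : |(((F.N c i ω').τ 0 : ℤ) : ℝ) - (F.N c i ω).τ 0| + |(((F.N c i ω').τ 1 : ℤ) : ℝ) - (F.N c i ω).τ 1| ≤ B := by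
      refine h1.trans ?_
      nlinarith
    intro k
    have h4 : |(((F.N c i ω').τ k : ℤ) : ℝ) - (F.N c i ω).τ k| ≤ B := by
      have a0 := abs_nonneg ((((F.N c i ω').τ 0 : ℤ) : ℝ) - (F.N c i ω).τ 0)
      have a1 := abs_nonneg ((((F.N c i ω').τ 1 : ℤ) : ℝ) - (F.N c i ω).τ 1)
      fin_cases k
      · show |(((F.N c i ω').τ 0 : ℤ) : ℝ) - (F.N c i ω).τ 0| ≤ B
        linarith
      · show |(((F.N c i ω').τ 1 : ℤ) : ℝ) - (F.N c i ω).τ 1| ≤ B
        linarith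
    exact_mod_cast h4
  · intro k
    have e2 : (F.N c i ω').o k / 2 ^ m = (F.N c i ω).o k / 2 ^ m := congrFun (congrArg Prod.snd eb) k
    have d1' : |Int.fract (((F.N c i ω').o k : ℝ) / 2 ^ m) - Int.fract (((F.N c i ω).o k : ℝ) / 2 ^ m)| ≤
        2 * (1 / 2 : ℝ) ^ m := d1 k
    rw [fract_div_sub _ _ _ e2, abs_div, abs_of_pos hp, div_le_iff₀ hp, hhalf] at d1'
    have h5 : 2 * (1 / (2 : ℝ) ^ m) * 2 ^ m = 2 := by field_simp
    rw [h5] at d1'
    have h6 : |(((F.N c i ω').o k : ℤ) : ℝ) - (F.N c i ω).o k| ≤ B := by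
      refine d1'.trans (le_trans ?_ hB)
      linarith
    exact_mod_cast h6

/-- **StExc** -/
theorem stExc : StExc := by
  intro K F J θ H e W kk jj hK R c hc
  have h := cts hK R
  have tN := h.tre.tN c hc
  have h1 := cnt_hc_le (R.W1 c hc)
  have h3 := h.hN c hc
  have tV : Tame (vL F W c) := cnt_tame (R.W1 c hc)
  have h4 := hc_le_add tN tV (one (S := F.S))
  have hx := cnt_xf hK R hc
  have tX : Tame (xf F W c) := by
    -- `xf` is a function of the node and of the angle, hence of the node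
    refine tN.mono ?_
    filter_upwards [R.Wfn c hc, R.Wok c hc] with i g1 g2 ω ω' hω hω' e
    have e1 : (W c i).θ ω = (W c i).θ ω' := g1 ω ω' hω hω' e
    have e2 : F.N c i ω = F.N c i ω' := e
    have e3 : F.ln c i ω = F.ln c i ω' := by
      unfold Flg.ln
      rw [e2]
    unfold xf
    rw [e1, e3, (g2 ω hω).2.2.1, (g2 ω hω).2.2.2.1, (g2 ω' hω').2.2.1, (g2 ω' hω').2.2.2.1]
  have h5 := hc_le_add tN tX (vL F W c)
  have h6 := hc_N_xf R hc
  have h7 := cnt_hc_le hx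
  have h8 : F.S.hc (F.N c) (Sys.pr (vL F W c) one) ≤ F.S.hc (F.N c) (vL F W c) :=
    hc_mono_right tN (ffst _ _)
  have h9 : F.S.h (F.N c) = F.S.hc (F.N c) one := rfl
  have h10 : F.S.hc (vL F W c) one = F.S.hc (Sys.pr (BX.lab (W c)) (F.ball c)) one := rfl
  linarith

end Vale.Agent.P122.H465
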