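import Vale.Agent.P122.H465.SpecA
import Vale.Agent.P122.H465.Exc
import Vale.Agent.P122.H371.QHalf
import Vale.Agent.P122.H540.SysA
import Vale.Agent.P122.H624.BoxB
import Vale.Agent.P122.H812.PQ
import Vale.Agent.P122.H655.E3
import Vale.Agent.P122.S.Prof

/-!
# P122 / E9 = (P) from E4 and E8 (helper465; blocks of 371, 540, 624, 812)
-/

set_option autoImplicit false

namespace Vale.Agent.P122.H465

open Vale.Agent.P122.E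

/-- **E9** from E4 and E8, uniform in `κ` -/
theorem e9_fin {κ₁ C₁ : ℝ} (h4 : E4) (hκ₁ : 0 < κ₁) (h8 : E8 κ₁ C₁) :
    ∃ κ₀ : ℝ, 0 < κ₀ ∧ ∃ C₀ : ℝ, ∀ κ, 0 < κ → κ ≤ κ₀ → E9 κ C₀ :=
  e9_asm hκ₁ h8 stExc (H624.stBox H518.e1 H655.e3 h4) H812.stPQ H371.stQdg H540.stPch

/-- **StE9** -/
theorem stE9 (h4 : E4) (h8 : S.StE8) : S.StE9 := by
  obtain ⟨κ₁, hκ₁, C₁, h8⟩ := h8
  obtain ⟨κ₀, h0, C₀, h⟩ := e9_fin h4 hκ₁ h8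
  exact ⟨κ₀, h0, fun κ hκ hκ' => ⟨C₀, h κ hκ hκ'⟩⟩

end Vale.Agent.P122.H465
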