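import Vale.Agent.P122.H540.Spec
import Vale.Agent.P122.H465.E9

/-!
# P122 / E9 = (P), assembly for the cut of helper540 (helper465)

* `stPsi : E8 κ C → StPsi κ C'`, `stDE : StDE`.
* `e9_asm : StExc → StBox → StPQ → StQdg → StPch → E8 κ₁ C₁ → ∃ κ₀ > 0, ∃ C₀, ∀ κ, 0 < κ → κ ≤ κ₀ → E9 κ C₀`.
-/

set_option autoImplicit false

namespace Vale.Agent.P122.H465

open Filter Topology Finset Vale.Agent.P127 Vale.Agent.P127.Stk Vale.Agent.P127.U Vale.Agent.P127.U.Sys Vale.Agent.P122.C2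
  Vale.Agent.P122.E Vale.Agent.P122.H518 Vale.Agent.P122.H265 Vale.Agent.P122.H540

variable {K : ℕ}

/-- the levels `[2 i - j, j]` are comparable -/
theorem j_small {F : Flg K} {J θ H e : ℕ → ℝ} {W : ℕ → F.S.BX} {kk jj : ℕ → ℕ → ℕ} (hK : 1 ≤ K)
    (R : RegA F J θ H e W kk jj) {κ c1 C₀ : ℝ} (hκ : 0 < κ) (hκa : κ ≤ 1 / 10) (hC₀ : 2 ≤ C₀) (hc1 : 0 < c1)
    (hC : C₀ / K ≤ c1) {i j : ℕ} (hi0 : 1 ≤ i) (ij : i ≤ j) (j2 : j ≤ 2 * i) (jK : j ≤ K)
    (near : ((j:ℝ) - i) / K ≤ κ * c1) (thin : c1 ≤ e (2 * i - j)) : j < 2 * i ∧ 2 * j ≤ 3 * i := by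
  have hKp : (0 : ℝ) < K := by exact_mod_cast hK
  have hcrude := e_le hK R (c := 2 * i - j) (by omega)
  have hcast : ((2 * i - j : ℕ) : ℝ) = 2 * i - j := by
    rw [Nat.cast_sub j2]
    push_cast
    ring
  rw [hcast] at hcrude
  have hc1' : c1 ≤ (4 * (2 * (i:ℝ) - j) + 1) / K := by
    have : 4 * (2 * (i:ℝ) - j) / K + 1 / K = (4 * (2 * (i:ℝ) - j) + 1) / K := by ring
    linarith
  have i1 : j < 2 * i := by
    rcases j2.lt_or_eq with h | h
    · exact h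
    · exfalso
      have h1 : (j : ℝ) = 2 * i := by exact_mod_cast h
      rw [h1] at hc1'
      have h2 : C₀ / K ≤ 1 / K := by
        refine hC.trans (hc1'.trans_eq ?_)
        ring
      have h3 : C₀ ≤ 1 := by
        rwa [div_le_div_iff_of_pos_right hKp] at h2
      linarith
  refine ⟨i1, ?_⟩
  have h1 : ((j:ℝ) - i) / K ≤ (1 / 10) * ((4 * (2 * (i:ℝ) - j) + 1) / K) := by
    refine near.trans ?_
    have : 0 ≤ (4 * (2 * (i:ℝ) - j) + 1) / K := hc1.le.trans hc1'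
    nlinarith
  rw [← mul_div_assoc, div_le_div_iff_of_pos_right hKp] at h1
  have h2 : (1 : ℝ) ≤ 2 * i - j := by
    have : j + 1 ≤ 2 * i := i1
    have : (j : ℝ) + 1 ≤ 2 * i := by exact_mod_cast this
    linarith
  have h3 : (2 * j : ℝ) ≤ 3 * i := by linarith
  exact_mod_cast h3

/-- **StPsi** -/
theorem stPsi {κ C C₀ : ℝ} (h8 : E8 κ C) (hκ : 0 < κ) (hκa : κ ≤ 1 / 10) (hC₀ : 2 ≤ C₀) (hCC : C ≤ C₀) :
    StPsi κ C₀ := by
  intro K F J θ H e W kk jj hK R c1 i j c0 hi0 ij j2 jK near cK0 thin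
  have hKp : (0 : ℝ) < K := by exact_mod_cast hK
  have cK : C / K ≤ c1 := (div_le_div_of_nonneg_right hCC hKp.le).trans cK0
  obtain ⟨i1, j3⟩ := j_small hK R hκ hκa hC₀ c0 cK0 hi0 ij j2 jK near (thin _ le_rfl (by omega)).1
  have hij' : (i : ℝ) ≤ j := by exact_mod_cast ij
  have ti := thin i (by omega) ij
  obtain ⟨ψ, hψ, -⟩ := h8 F J θ H e W kk jj hK R c1 i i j c0 (by omega) le_rfl ij i1.le jK near cK ti ti
  refine ⟨ψ, fun c _ hc hcj => ?_⟩
  have tc := thin c hc hcj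
  have key : ∃ (ψ' : ℕ → Nd → ℝ) (b : ℕ) (d : ℕ),
      (Rare F.S fun a ω => (2 : ℝ) ^ (-(c1 / 2 * F.S.L a)) < |Real.sin ((W c a).θ ω - ψ' a (F.sig b d a ω))|) ∧
      (Rare F.S fun a ω => (2 : ℝ) ^ (-(c1 / 2 * F.S.L a)) < |Real.sin ((W i a).θ ω - ψ' a (F.sig b d a ω))|) := by
    rcases le_total c i with hci | hic
    · have h1 : ((i:ℝ) - c) / K ≤ κ * c1 := by
        refine le_trans (div_le_div_of_nonneg_right ?_ hKp.le) near
        have h2 : 2 * i ≤ c + j := by omega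
        have h3 : 2 * (i:ℝ) ≤ c + j := by exact_mod_cast h2
        linarith
      obtain ⟨ψ', h1, h2⟩ := h8 F J θ H e W kk jj hK R c1 c i i c0 (by omega) hci le_rfl (by omega) (by omega)
        h1 cK tc ti
      exact ⟨ψ', c, i, h1, h2⟩
    · have h1 : ((c:ℝ) - i) / K ≤ κ * c1 := by
        refine le_trans (div_le_div_of_nonneg_right ?_ hKp.le) near
        have h3 : (c:ℝ) ≤ j := by exact_mod_cast hcj
        linarith
      obtain ⟨ψ', h1, h2⟩ := h8 F J θ H e W kk jj hK R c1 i c c c0 (by omega) hic le_rfl (by omega) (by omega)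
        h1 cK ti tc
      exact ⟨ψ', i, c, h2, h1⟩
  obtain ⟨ψ', b, d, h1, h2⟩ := key
  refine Rare.mono (Rare.or h1 (Rare.or h2 hψ)) (Eventually.of_forall fun a ω hω hbad => ?_)
  by_contra hcon
  push Not at hcon
  obtain ⟨g1, g2, g3⟩ := hcon
  have k2 := sin_tri ((W c a).θ ω) (ψ' a (F.sig b d a ω)) (ψ a (F.sig i j a ω))
  have k3 := sin_tri (ψ' a (F.sig b d a ω)) ((W i a).θ ω) (ψ a (F.sig i j a ω))
  rw [sin_symm (ψ' a (F.sig b d a ω)) ((W i a).θ ω)] at k3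
  linarith

theorem fn_sig_N {F : Flg K} (i j : ℕ) : Sys.Fn (F.sig i j) (F.N i) := by
  refine Eventually.of_forall fun a ω ω' _ _ e => ?_
  have e' : F.N i a ω = F.N i a ω' := e
  show Nd.mk _ _ _ = Nd.mk _ _ _
  rw [e']

theorem fn_T_sig {F : Flg K} (i j : ℕ) : Sys.Fn (F.T i) (F.sig i j) := by
  refine Eventually.of_forall fun a ω ω' _ _ e => ?_
  have e' : F.sig i j a ω = F.sig i j a ω' := e
  have e2 := congrArg Nd.T e'
  exact e2

theorem hc_sig_T {F : Flg K} {J θ H e : ℕ → ℝ} {W : ℕ → F.S.BX} {kk jj : ℕ → ℕ → ℕ} (hK : 1 ≤ K)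
    (R : RegA F J θ H e W kk jj) {i j : ℕ} (ij : i ≤ j) (jK : j ≤ K) :
    F.S.hc (F.N i) (Sys.pr (F.sig i j) (F.N j)) = F.S.hc (F.N i) (Sys.pr (F.T i) (F.N j)) := by
  have h := cts hK R
  have tNi := h.tre.tN i (ij.trans jK)
  have tsig : Tame (F.sig i j) := tNi.mono (fn_sig_N i j)
  have g1 : F.S.hc (F.N i) (Sys.pr (F.sig i j) (Sys.pr (F.T i) (F.N j))) =
      F.S.hc (F.N i) (Sys.pr (F.T i) (F.N j)) := hc_cond_zero tNi tsig (sig_TN F ij jK)
  rw [← g1]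
  refine hc_congr (ffst _ _) (ffst _ _) ?_ ?_
  · exact fpr (ffst _ _) (ftr (fsnd _ _) (fsnd _ _))
  · exact fpr (ffst _ _) (fpr (ftr (fn_T_sig i j) (ffst _ _)) (fsnd _ _))

/-- **StDE** -/
theorem stDE : StDE := by
  intro K F J θ H e W kk jj hK R i j _ ij _ jK
  have h := cts hK R
  have d1 := h.En_sub ij jK
  have d2 := h.Cn_ge ij jK
  have d5 : nE K J θ H j - nE K J θ H i = Cts.En K H J θ j - Cts.En K H J θ i := rfl
  have d6 : F.D i j = Cts.Dn F.S K F.N F.T i j := rfl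
  have d7 : Cts.Cn F.S K F.N F.T i j = 2 * ((j:ℝ) - i) / K - F.S.hc (F.N i) (Sys.pr (F.sig i j) (F.N j)) := by
    rw [hc_sig_T hK R ij jK]
    rfl
  rw [d5, d6]
  constructor <;> linarith

/-- limit of the digits of the fattened plank -/
theorem nu_min_ge (F : Flg K) (hK : 1 ≤ K) {c d : ℕ} {m : ℕ → ℕ} (h : ∀ᶠ i in (uf : Filter ℕ), m i ≤ c * F.n i) {x : ℝ}
    (h1 : x ≤ F.S.nu m) (h2 : x ≤ (d : ℝ) / K) : x ≤ F.S.nu fun a => min (m a) (d * F.n a) := by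
  have hKp : (0 : ℝ) < K := by exact_mod_cast hK
  have hub : UB fun i => (m i : ℝ) / F.S.L i := by
    refine UB.of_le (C := c / K) (Eventually.of_forall fun i => by positivity) ?_
    filter_upwards [h, F.S.L_pos] with i h1 h2
    have h3 : (0 : ℝ) < F.S.L i := by exact_mod_cast h2
    rw [div_le_div_iff₀ h3 hKp, F.L_eq i]
    have h4 : (m i : ℝ) ≤ c * F.n i := by exact_mod_cast h1
    push_cast
    nlinarith
  have t1 : Tendsto (fun i => (m i : ℝ) / F.S.L i) (uf : Filter ℕ) (𝓝 (F.S.nu m)) := hub.tendsto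
  have t2 : Tendsto (fun i => min ((m i : ℝ) / F.S.L i) ((d : ℝ) / K)) (uf : Filter ℕ)
      (𝓝 (min (F.S.nu m) ((d : ℝ) / K))) := t1.min tendsto_const_nhds
  have t3 : F.S.nu (fun a => min (m a) (d * F.n a)) = min (F.S.nu m) ((d : ℝ) / K) := by
    refine ulim_eq (t2.congr' ?_)
    filter_upwards [F.S.L_pos] with i h2
    have h3 : (0 : ℝ) < F.S.L i := by exact_mod_cast h2
    have h4 : (d : ℝ) / K = ((d * F.n i : ℕ) : ℝ) / F.S.L i := by
      rw [div_eq_div_iff hKp.ne' h3.ne', F.L_eq i]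
      push_cast
      ring
    rw [h4, min_div_div_right h3.le, ← Nat.cast_min]
  rw [t3]
  exact le_min h1 h2

/-- **E9 = (P)**, assembly for the cut of helper540 -/
theorem e9_asm {κ₁ C₁ : ℝ} (hκ₁ : 0 < κ₁) (h8 : E8 κ₁ C₁) (hE : StExc) (hB : StBox) (hPQ : StPQ) (hQ : StQdg)
    (hP : StPch) : ∃ κ₀ : ℝ, 0 < κ₀ ∧ ∃ C₀ : ℝ, ∀ κ, 0 < κ → κ ≤ κ₀ → E9 κ C₀ := by
  refine ⟨min (1 / 10) κ₁, lt_min (by norm_num) hκ₁, max C₁ 0 + 5, ?_⟩
  intro κ hκ hκ' K F J θ H e W kk jj c1 φ JF hK hc1 hC R i j u ij j2 jK iu near thin hα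
  have hκa : κ ≤ 1 / 10 := hκ'.trans (min_le_left _ _)
  have hκb : κ ≤ κ₁ := hκ'.trans (min_le_right _ _)
  have hKp : (0 : ℝ) < K := by exact_mod_cast hK
  have hC0 : C₁ ≤ max C₁ 0 := le_max_left _ _
  have hC1 : 0 ≤ max C₁ 0 := le_max_right _ _
  set C₀ : ℝ := max C₁ 0 + 5 with hCdef
  have hdiv : ∀ x : ℝ, x ≤ C₀ → x / K ≤ C₀ / K := fun x hx => div_le_div_of_nonneg_right hx hKp.le
  have hCpos : 0 ≤ C₀ / K := div_nonneg (by linarith) hKp.le
  -- the case `i = 0`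
  rcases Nat.eq_zero_or_pos i with hi0 | hi0
  · subst hi0
    have hj0 : j = 0 := by omega
    subst hj0
    have hu0 : u = 0 := by omega
    subst hu0
    simp only [sub_self, mul_zero, add_zero]
    linarith
  have R' := R.toRegA
  obtain ⟨i1, j3⟩ := j_small hK R' hκ hκa (C₀ := C₀) (by linarith) hc1 hC hi0 ij j2 jK near (thin _ le_rfl (by omega)).1
  obtain ⟨ψ, hψ⟩ := stPsi (H563.E8.mono le_rfl hκb h8) hκ hκa (C₀ := C₀) (by linarith) (by linarith) F J θ H e W kk jj hK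
    R' c1 i j hc1 hi0 ij j2 jK near hC thin
  have hcast : ((2 * i - j : ℕ) : ℝ) = 2 * i - j := by
    rw [Nat.cast_sub j2]
    push_cast
    ring
  have c1K : 5 / K ≤ c1 := (hdiv 5 (by linarith)).trans hC
  have e1K : 5 / (K : ℝ) = 5 * (1 / K) := by ring
  have n0 : (0 : ℝ) < 1 / K := by positivity
  have ti := thin i (by omega) ij
  have hexc := hE F J θ H e W kk jj hK R' i (ij.trans jK)
  -- the width
  have hkk : F.S.nu (kk i) < ((2 * i - j : ℕ) : ℝ) / K := by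
    rw [hcast]
    have a1 := ti.1
    have a2 := ti.2
    unfold nα at a2
    have a3 : (2 * (i:ℝ) - j) / K = i / K - ((j:ℝ) - i) / K := by ring
    have a4 : 2 * (i:ℝ) / K = i / K + i / K := by ring
    rw [a3]
    nlinarith
  have b1 := hB F J θ H e W kk jj hK R' i j hi0 ij j2 jK hkk
  have b2 := hPQ F J θ H e W kk jj hK R' c1 i j u ψ hi0 ij j2 jK iu hc1 (by nlinarith) hα hψ
  have b3 := hQ F J θ H e W kk jj κ c1 φ JF hK hc1 R i j u ψ hi0 ij j2 jK iu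
    ((hdiv 2 (by linarith)).trans hC) thin hψ
  have b4 := hP F J θ H e W kk jj κ c1 φ JF hK hc1 R i j u ψ hi0 ij j2 jK iu
    ((hdiv 2 (by linarith)).trans hC) thin hψ
  obtain ⟨b5, b6⟩ := stDE F J θ H e W kk jj hK R' i j hi0 ij j2 jK
  -- the thickness
  have hjj : ∀ᶠ a in (uf : Filter ℕ), jj i a ≤ i * F.n a := by
    filter_upwards [R'.Wok i (ij.trans jK)] with a ha
    obtain ⟨ω, hω⟩ := law_pos (F.S.P a)
    exact (ha ω hω).2.2.2.2.2
  have hα' := abs_le.1 hα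
  unfold nα at hα'
  have hthk : F.S.nu (jj i) - F.S.nu (fun a => min (jj i a) ((2 * i - j) * F.n a)) ≤ ((j:ℝ) - i - u) / K + 2 / K := by
    have iu' : (i : ℝ) + u ≤ j := by exact_mod_cast iu
    have a1 : (2 * (i:ℝ) - j - 1) / K ≤ F.S.nu fun a => min (jj i a) ((2 * i - j) * F.n a) := by
      refine nu_min_ge F hK hjj ?_ ?_
      · have g1 : (2 * (i:ℝ) - j - 1) / K ≤ 2 * i / K - (i + u) / K - 1 / K := by
          rw [← sub_div, ← sub_div]
          exact div_le_div_of_nonneg_right (by linarith) hKp.le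
        linarith [hα'.2]
      · rw [hcast]
        exact div_le_div_of_nonneg_right (by linarith) hKp.le
    have a2 : F.S.nu (jj i) ≤ ((i:ℝ) - u + 1) / K := by
      have g1 : 2 * (i:ℝ) / K - (i + u) / K + 1 / K = ((i:ℝ) - u + 1) / K := by ring
      linarith [hα'.1]
    have a3 : ((i:ℝ) - u + 1) / K - (2 * (i:ℝ) - j - 1) / K = ((j:ℝ) - i - u) / K + 2 / K := by ring
    linarith
  -- the entropies
  have h := cts hK R'
  have tNi := h.tre.tN i (ij.trans jK)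
  have tNj := h.tre.tN j jK
  have fsigN := fn_sig_N (F := F) i j
  have tsig : Tame (F.sig i j) := tNi.mono fsigN
  have tV : Tame (vL F W i) := cnt_tame (R'.W1 i (ij.trans jK))
  have fp : Sys.Fn (pD F i j u ψ) (F.N i) := by
    filter_upwards [fsigN] with a ha ω ω' hω hω' e
    have e' : F.N i a ω = F.N i a ω' := e
    have e2 := ha ω ω' hω hω' e
    unfold pD
    rw [e', e2]
  have fq : Sys.Fn (qD F i j (i - u) ψ) (F.N i) := by
    filter_upwards [fsigN] with a ha ω ω' hω hω' e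
    have e' : F.N i a ω = F.N i a ω' := e
    have e2 := ha ω ω' hω hω' e
    unfold qD Flg.Y
    rw [e', e2]
  have tp := tNi.mono fp
  have tq := tNi.mono fq
  have tpq := tp.pr tq
  have fq2 : Sys.Fn (qD F i j (i - u) ψ) (Sys.pr (F.sig i j) (F.N j)) := by
    filter_upwards [ftr (h.tre.YY' ij jK) (h.tre.YN j jK)] with a ha ω ω' hω hω' e
    have e1 : F.sig i j a ω = F.sig i j a ω' := congrArg Prod.fst e
    have e2 : F.Y i a ω = F.Y i a ω' := ha ω ω' hω hω' (congrArg Prod.snd e)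
    unfold qD
    rw [e1, e2]
  have k1 := hc_le_add tpq tV (F.sig i j)
  have k2 : F.S.hc (Sys.pr (pD F i j u ψ) (qD F i j (i - u) ψ)) (F.sig i j) =
      F.S.hc (Sys.pr (qD F i j (i - u) ψ) (pD F i j u ψ)) (F.sig i j) := by
    refine hc_congr ?_ ?_ (frf _) (frf _)
    · exact ftr (fpr (fsnd _ _) (ffst _ _)) (ffst _ _)
    · exact ftr (fpr (fsnd _ _) (ffst _ _)) (ffst _ _)
  have k3 := hc_pair tq tp (F.sig i j)
  have k4 : F.S.hc (pD F i j u ψ) (Sys.pr (F.sig i j) (F.N j)) ≤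
      F.S.hc (pD F i j u ψ) (Sys.pr (qD F i j (i - u) ψ) (F.sig i j)) :=
    hc_mono_right tp (fpr fq2 (ffst _ _))
  have k5 := hc_le_add tNi tp (Sys.pr (F.sig i j) (F.N j))
  -- the sums
  have n1 : ng F e jj κ c1 JF j - ng F e jj κ c1 JF (i + u) = ∑ c ∈ Ico (i + u) j, JF c :=
    ng_sub F e jj κ c1 JF iu (by omega) fun c hc hc' => thin c (by omega) hc'.le
  have n2 : ng F e jj κ c1 JF (i - u) - ng F e jj κ c1 JF (2 * i - j) = ∑ c ∈ Ico (2 * i - j) (i - u), JF c :=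
    ng_sub F e jj κ c1 JF (by omega) (by omega) fun c hc hc' => thin c hc (by omega)
  have n3 : ∑ c ∈ Ico (2 * i - j) (i - u), (if 1 ≤ c then JF c else 0) = ∑ c ∈ Ico (2 * i - j) (i - u), JF c := by
    refine sum_congr rfl fun c hc => ?_
    rw [mem_Ico] at hc
    rw [if_pos (by omega)]
  rw [n3] at b3
  have n4 : ∑ c ∈ Ico i (i + u), (2 / (K : ℝ) - 2 * θ c) + ∑ c ∈ Ico (i + u) j, (1 / (K : ℝ) - 2 * θ c + JF c) =
      2 * u / K + ((j:ℝ) - i - u) / K - 2 * ∑ c ∈ Ico i j, θ c + ∑ c ∈ Ico (i + u) j, JF c := by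
    rw [sum_sub_distrib, sum_add_distrib, sum_sub_distrib, sum_const, sum_const, Nat.card_Ico, Nat.card_Ico,
      ← mul_sum, ← mul_sum, nsmul_eq_mul, nsmul_eq_mul, ← sum_Ico_consecutive θ (Nat.le_add_right i u) iu]
    have g1 : ((i + u - i : ℕ) : ℝ) = u := by
      have : i + u - i = u := by omega
      rw [this]
    have g2 : ((j - (i + u) : ℕ) : ℝ) = (j:ℝ) - i - u := by
      rw [Nat.cast_sub iu]
      push_cast
      ring
    rw [g1, g2]
    ring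
  rw [n4] at b4
  rw [n1, n2]
  have e3 : 5 / K ≤ C₀ / K := hdiv 5 (by linarith)
  have e4 : 2 / (K : ℝ) = 2 * (1 / K) := by ring
  have e5 : 2 * ((j:ℝ) - i) / K = 2 * u / K + ((j:ℝ) - i - u) / K + ((j:ℝ) - i - u) / K := by ring
  linarith

end Vale.Agent.P122.H465
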